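import Vale.Agent.P330.W.H170.Code
import Vale.Agent.P330.W.H624.Tanner
import Vale.Agent.P330.H933.Fld3

/-!
# Local decoders

The local codes are `LC P τ s = {x | (b ↦ s b * x (τ b)) ∈ Wd P (Fl l)}` for a space `P` of checks
over the field with two elements, a permutation `τ` of the labels and units `s b`.

* `tab P d`: the table decoder of the binary code (`tab_eq`).
* `decF T l`: the table `T` applied to every bit slice of a word with values in `Fl l`
  (`decF_eq`).
* `decLC`: the decoder of `LC P τ s`, for words with missing entries (`decLC_eq`, `decodes_LC`).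
* `FT.decF`, `FT.decLC`: polynomial time.
* `holdS`: one round of decoding at a site, as a function of the blocks at the wires
  (`holdS_eq_hold`, `FT.holdS`).
-/

namespace Vale.Agent.P330.H708

open Finset
open Vale.Agent.P330.W (Wd DistGe wt map_mem_Wd mem_Wd)
open Vale.Agent.P330.TAN (Decodes hd Dist hold)
open Vale.Agent.P330.H933
open Vale.Agent.Lib.PolyTime

/-! ### The binary code -/

section bin

variable {B : Type*} [Fintype B]

theorem hd_comm {A : Type*} (x y : B → A) : hd x y = hd y x := by
  classical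
  unfold TAN.hd
  refine congrArg card (filter_congr fun b _ => ?_)
  exact ⟨fun h h' => h h'.symm, fun h h' => h h'.symm⟩

theorem hd_triangle {A : Type*} (x y z : B → A) : hd x z ≤ hd x y + hd y z := by
  classical
  unfold TAN.hd
  refine le_trans (card_le_card fun b hb => ?_) (card_union_le _ _)
  simp only [mem_filter, mem_univ, true_and, mem_union] at hb ⊢
  by_contra hcon
  push Not at hcon
  exact hb (hcon.1.trans hcon.2)

theorem hd_map_le {A A' : Type*} {x y : B → A} {x' y' : B → A'}
    (h : ∀ b, x b = y b → x' b = y' b) : hd x' y' ≤ hd x y := by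
  classical
  unfold TAN.hd
  refine card_le_card fun b hb => ?_
  simp only [mem_filter, mem_univ, true_and] at hb ⊢
  exact fun h' => hb (h b h')

theorem hd_eq_wt {E : Type*} [AddGroup E] (x y : B → E) : hd x y = wt (x - y) := by
  classical
  unfold TAN.hd W.wt
  refine congrArg card (filter_congr fun b _ => ?_)
  simp [sub_eq_zero]

variable {K : Type*} [Field K]

/-- Two different words of the code differ at at least `d` labels. -/
theorem le_hd {P : Submodule K (B → K)} {d : ℕ} (hP : DistGe P d) {E : Type*} [AddCommGroup E]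
    [Module K E] {x y : B → E} (hx : x ∈ Wd P E) (hy : y ∈ Wd P E) (h : x ≠ y) :
    d ≤ hd x y := by
  rw [hd_eq_wt]
  exact hP.le_wt (Submodule.sub_mem _ hx hy) (sub_ne_zero.2 h)

open Classical in
/-- The table decoder: the word of the code at distance less than `d / 2`. -/
noncomputable def tab (P : Submodule (ZMod 2) (B → ZMod 2)) (d : ℕ) (w : B → ZMod 2) :
    B → ZMod 2 :=
  if h : ∃ c ∈ Wd P (ZMod 2), 2 * hd w c < d then h.choose else 0

theorem tab_eq {P : Submodule (ZMod 2) (B → ZMod 2)} {d : ℕ} (hP : DistGe P d)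
    {c w : B → ZMod 2} (hc : c ∈ Wd P (ZMod 2)) (h : 2 * hd w c < d) : tab P d w = c := by
  classical
  have hex : ∃ c ∈ Wd P (ZMod 2), 2 * hd w c < d := ⟨c, hc, h⟩
  have h1 : tab P d w = hex.choose := by
    unfold tab
    rw [dif_pos hex]
  obtain ⟨h2, h3⟩ := hex.choose_spec
  rw [← h1] at h2 h3
  by_contra hne
  have h4 := le_hd hP h2 hc hne
  have h5 := hd_triangle (tab P d w) w c
  rw [hd_comm (tab P d w) w] at h5
  omega

/-- The table decoder on Boolean words. -/
noncomputable def tabB (P : Submodule (ZMod 2) (B → ZMod 2)) (d : ℕ) (w : B → Bool) : B → Bool :=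
  fun b => decide (tab P d (fun b => if w b then 1 else 0) b = 1)

end bin

/-! ### Bit slices -/

section slices

/-- The `k`-th coordinate, as a linear map. -/
noncomputable def slice (l k : ℕ) : Fl l →ₗ[ZMod 2] ZMod 2 where
  toFun x := if bitF l k x then 1 else 0
  map_add' x y := by
    rw [bitF_add]
    cases bitF l k x <;> cases bitF l k y <;> decide
  map_smul' c x := by
    have hc : c = 0 ∨ c = 1 := by
      revert c
      decide
    rcases hc with rfl | rfl
    · rw [zero_smul, bitF_zero]; simp
    · rw [one_smul]; simp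

variable {B : Type*} [Fintype B]

/-- The table `T` applied to every bit slice. -/
noncomputable def decF (T : (B → Bool) → B → Bool) (l : ℕ) (x : B → Fl l) : B → Fl l :=
  fun b => ∑ k ∈ range (eF l), if T (fun b' => bitF l k (x b')) b then th l ^ k else 0

theorem decF_eq {P : Submodule (ZMod 2) (B → ZMod 2)} {d : ℕ} (hP : DistGe P d) {l : ℕ}
    {c x : B → Fl l} (hc : c ∈ Wd P (Fl l)) (h : 2 * hd x c < d) :
    decF (tabB P d) l x = c := by
  funext b
  conv_rhs => rw [eq_sum_bitF (c b)]
  unfold decF
  refine sum_congr rfl fun k _ => ?_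
  have h1 : tab P d (fun b' => if bitF l k (x b') then 1 else 0) =
      fun b' => slice l k (c b') := by
    refine tab_eq hP (map_mem_Wd hc (slice l k)) ?_
    refine lt_of_le_of_lt (Nat.mul_le_mul_left 2 (hd_map_le fun b' hb' => ?_)) h
    show (if bitF l k (x b') then (1 : ZMod 2) else 0) = _
    rw [hb']
    rfl
  have h2 : tabB P d (fun b' => bitF l k (x b')) b = bitF l k (c b) := by
    unfold tabB
    rw [h1]
    show decide ((if bitF l k (c b) then (1 : ZMod 2) else 0) = 1) = _
    cases bitF l k (c b) <;> decide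
  rw [h2]

end slices

/-! ### The local codes -/

section lc

variable {B : Type*} [Fintype B]

/-- The local code with the checks `P`, the permutation `τ` of the labels and the scaling `s`. -/
def LC (P : Submodule (ZMod 2) (B → ZMod 2)) {F : Type*} [Field F] [Algebra (ZMod 2) F]
    (τ : B ≃ B) (s : B → F) : Set (B → F) :=
  {x | (fun b => s b * x (τ b)) ∈ Wd P F}

theorem mem_LC {P : Submodule (ZMod 2) (B → ZMod 2)} {F : Type*} [Field F] [Algebra (ZMod 2) F]
    {τ : B ≃ B} {s : B → F} {x : B → F} : x ∈ LC P τ s ↔ (fun b => s b * x (τ b)) ∈ Wd P F :=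
  Iff.rfl

/-- The local code as a subspace. -/
def LCs (P : Submodule (ZMod 2) (B → ZMod 2)) {F : Type*} [Field F] [Algebra (ZMod 2) F]
    (τ : B ≃ B) (s : B → F) : Submodule F (B → F) where
  carrier := LC P τ s
  add_mem' := by
    intro x y hx hy
    rw [mem_LC] at *
    convert Submodule.add_mem _ hx hy using 1
    funext b
    simp [mul_add]
  zero_mem' := by
    rw [mem_LC]
    convert Submodule.zero_mem _ using 1
    funext b
    simp
  smul_mem' := by
    intro c x hx
    rw [mem_LC, mem_Wd] at *
    intro h hh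
    have h1 := congrArg (fun t => c * t) (hx h hh)
    simp only [mul_zero, mul_sum] at h1
    rw [← h1]
    refine sum_congr rfl fun b _ => ?_
    rw [Pi.smul_apply, smul_eq_mul, Algebra.mul_smul_comm]
    congr 1
    ring

theorem mem_LCs {P : Submodule (ZMod 2) (B → ZMod 2)} {F : Type*} [Field F] [Algebra (ZMod 2) F]
    {τ : B ≃ B} {s : B → F} {x : B → F} : x ∈ LCs P τ s ↔ (fun b => s b * x (τ b)) ∈ Wd P F :=
  Iff.rfl

theorem coe_LCs {P : Submodule (ZMod 2) (B → ZMod 2)} {F : Type*} [Field F] [Algebra (ZMod 2) F]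
    {τ : B ≃ B} {s : B → F} : (LCs P τ s : Set (B → F)) = LC P τ s := rfl

theorem hd_perm {A : Type*} (τ : B ≃ B) (x y : B → A) :
    hd (fun b => x (τ b)) (fun b => y (τ b)) = hd x y := by
  classical
  unfold TAN.hd
  refine card_bij (fun b _ => τ b) (fun b hb => ?_) (fun b _ b' _ h => τ.injective h)
    fun b hb => ⟨τ.symm b, ?_, by simp⟩
  · simpa using hb
  · simpa using hb

/-- The distance of the local code. -/
theorem le_hd_LC {P : Submodule (ZMod 2) (B → ZMod 2)} {d : ℕ} (hP : DistGe P d) {F : Type*}
    [Field F] [Algebra (ZMod 2) F] {τ : B ≃ B} {s : B → F} (hs : ∀ b, s b ≠ 0) {x y : B → F}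
    (hx : x ∈ LC P τ s) (hy : y ∈ LC P τ s) (h : x ≠ y) : d ≤ hd x y := by
  rw [mem_LC] at hx hy
  have h1 := le_hd hP hx hy (fun he => h (by
    funext b
    have h2 := congrFun he (τ.symm b)
    simp only [Equiv.apply_symm_apply] at h2
    exact mul_left_cancel₀ (hs _) h2))
  refine h1.trans ?_
  rw [← hd_perm τ x y]
  exact hd_map_le fun b hb => by rw [hb]

theorem dist_LC {P : Submodule (ZMod 2) (B → ZMod 2)} {d : ℕ} (hP : DistGe P d) {F : Type*}
    [Field F] [Algebra (ZMod 2) F] {τ : B ≃ B} {s : B → F} (hs : ∀ b, s b ≠ 0) {δ : ℝ}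
    (hδ : δ * Fintype.card B ≤ d) : Dist (LC P τ s) δ := fun x hx y hy h =>
  hδ.trans (by exact_mod_cast le_hd_LC hP hs hx hy h)

/-- The decoder of the local code, for words with missing entries. -/
noncomputable def decLC (T : (B → Bool) → B → Bool) (τ : B ≃ B) (l : ℕ) (s : B → Fl l)
    (y : B → Option (Fl l)) : B → Fl l :=
  fun b => (s (τ.symm b))⁻¹ * decF T l (fun b' => s b' * (y (τ b')).getD 0) (τ.symm b)

open Classical in
theorem decLC_eq {P : Submodule (ZMod 2) (B → ZMod 2)} {d : ℕ} (hP : DistGe P d) {l : ℕ}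
    {τ : B ≃ B} {s : B → Fl l} (hs : ∀ b, s b ≠ 0) {c : B → Fl l} (hc : c ∈ LC P τ s)
    {y : B → Option (Fl l)} (h : 2 * (univ.filter fun b => y b ≠ some (c b)).card < d) :
    decLC (tabB P d) τ l s y = c := by
  have h1 : decF (tabB P d) l (fun b' => s b' * (y (τ b')).getD 0) =
      fun b => s b * c (τ b) := by
    refine decF_eq hP hc (lt_of_le_of_lt (Nat.mul_le_mul_left 2 ?_) h)
    calc hd (fun b' => s b' * (y (τ b')).getD 0) (fun b => s b * c (τ b))
        ≤ hd (fun b => y (τ b)) (fun b => (some (c (τ b)) : Option (Fl l))) :=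
          hd_map_le fun b hb => by
            have hb' : y (τ b) = some (c (τ b)) := hb
            show s b * (y (τ b)).getD 0 = s b * c (τ b)
            rw [hb']
            rfl
      _ = hd y (fun b => (some (c b) : Option (Fl l))) :=
          hd_perm τ y (fun b => (some (c b) : Option (Fl l)))
      _ = (univ.filter fun b => y b ≠ some (c b)).card := by
          unfold TAN.hd
          congr
  funext b
  unfold decLC
  rw [h1]
  simp only [Equiv.apply_symm_apply]
  rw [← mul_assoc, inv_mul_cancel₀ (hs _), one_mul]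

theorem decodes_LC {P : Submodule (ZMod 2) (B → ZMod 2)} {d : ℕ} (hP : DistGe P d) {l : ℕ}
    {τ : B ≃ B} {s : B → Fl l} (hs : ∀ b, s b ≠ 0) {δ : ℝ}
    (hδ : 2 * (δ * Fintype.card B) ≤ d) :
    Decodes (decLC (tabB P d) τ l s) (LC P τ s) δ := by
  classical
  intro c hc y hy
  refine decLC_eq hP hs hc ?_
  have h1 : (2 * ((univ.filter fun b => y b ≠ some (c b)).card : ℝ)) < d := by
    have h2 := hy
    linarith
  have h3 : ((2 * (univ.filter fun b => y b ≠ some (c b)).card : ℕ) : ℝ) < (d : ℕ) := by
    push_cast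
    exact h1
  exact_mod_cast h3

end lc

/-! ### Polynomial time -/

section pt

variable {A : Set Word} {α β : Type*} [Enc α] [Enc β]

/-- Functions given by a finite table. -/
theorem PT.table {n : ℕ} (T : (Fin n → Bool) → β) {x : Fin n → α → Bool}
    (hx : ∀ i, PT A (x i)) : PT A (fun a => T fun i => x i a) := by
  induction n with
  | zero => exact (PT.const (T fun i => i.elim0)).congr fun a => congrArg T (funext fun i => i.elim0)
  | succ n ih =>
    have h1 := ih (fun y => T (Fin.cons true y)) (x := fun i => x i.succ) fun i => hx i.succ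
    have h2 := ih (fun y => T (Fin.cons false y)) (x := fun i => x i.succ) fun i => hx i.succ
    refine ((hx 0).cond h1 h2).congr fun a => ?_
    have h3 : (fun i => x i a) = Fin.cons (x 0 a) (fun i => x (Fin.succ i) a) := by
      funext i
      refine Fin.cases ?_ (fun i => ?_) i <;> simp
    rw [h3]
    cases x 0 a <;> rfl

/-- A table on a finite type of labels. -/
theorem PT.table' {B : Type*} [Fintype B] (T : (B → Bool) → β) {x : B → α → Bool}
    (hx : ∀ i, PT A (x i)) : PT A (fun a => T fun i => x i a) := by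
  have e := Fintype.equivFin B
  refine (PT.table (fun y => T fun b => y (e b)) (x := fun i => x (e.symm i))
    fun i => hx _).congr fun a => ?_
  simp

variable {B : Type*} [Fintype B] {l : α → ℕ}

theorem FT.decF (hl : LPar A l) (T : (B → Bool) → B → Bool) {x : ∀ a, B → Fl (l a)}
    (hx : ∀ b, FT A l fun a => x a b) (b : B) : FT A l fun a => H708.decF T (l a) (x a) b := by
  unfold H708.decF
  refine FT.sum_range hl hl.eF hl.eFbd ?_
  have hl2 : LPar A (fun p : α × ℕ => l p.1) := hl.comp PT.fst'
  have h1 : PT A (fun p : α × ℕ => T (fun b' => bitF (l p.1) p.2 (x p.1 b')) b) :=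
    PT.table' (fun y => T y b) fun b' =>
      PT.bitF (l := fun p : α × ℕ => l p.1) (FT.comp (hx b') PT.fst') PT.snd'
  exact FT.ite (p := fun p : α × ℕ => T (fun b' => bitF (l p.1) p.2 (x p.1 b')) b = true)
    (h1.congr fun a => by simp) (FT.pow hl2 (FT.th hl2) PT.snd') FT.zero

theorem FT.decLC (hl : LPar A l) (T : (B → Bool) → B → Bool) (τ : B ≃ B) {s : ∀ a, B → Fl (l a)}
    (hs : ∀ b, FT A l fun a => s a b) {y : ∀ a, B → Option (Fl (l a))}
    (hy : ∀ b, FT A l fun a => (y a b).getD 0) (b : B) :
    FT A l fun a => H708.decLC T τ (l a) (s a) (y a) b := by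
  unfold H708.decLC
  exact FT.mul hl (FT.inv hl (hs _))
    (FT.decF hl T (x := fun a b' => s a b' * (y a (τ b')).getD 0)
      (fun b' => FT.mul hl (hs _) (hy _)) _)

end pt

/-! ### One round of decoding at a site -/

section hold

variable {B A : Type*}

/-- One round of decoding: the right vertices decode, then the left vertex; `wI b b'` is the number
of the wire from `h` to `h b b'⁻¹`. -/
def holdS {K : ℕ} (wI : B → B → Fin K) (DL DR : (B → Option A) → (B → A))
    (v : Fin K → Option (B → A)) : B → A :=
  DL fun b => some (DR (fun b' => (v (wI b b')).map fun x => x b') b)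

theorem holdS_eq_hold {V : Type*} {K : ℕ} {wI : B → B → Fin K} {e : B → V ≃ V}
    {wr : Fin K → V ≃ V} (hw : ∀ b b' h, wr (wI b b') h = (e b').symm (e b h))
    (DL DR : (B → Option A) → (B → A)) (X : V → Option (B → A)) (h : V) :
    holdS wI DL DR (fun i => X (wr i h)) = hold e (fun _ => DL) (fun _ => DR) X h := by
  unfold holdS TAN.hold
  simp only [hw]

theorem FT.holdS {A : Set Word} {α : Type*} [Enc α] {l : α → ℕ} [Fintype B] (hl : LPar A l)
    (T : (B → Bool) → B → Bool) {K : ℕ} (wI : B → B → Fin K) (τL τR : B ≃ B)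
    {sL sR : ∀ a, B → Fl (l a)} (hsL : ∀ b, FT A l fun a => sL a b)
    (hsR : ∀ b, FT A l fun a => sR a b)
    {v : ∀ a, Fin K → Option (B → Fl (l a))}
    (hv : ∀ i b, FT A l fun a => ((v a i).map fun x => x b).getD 0) (b : B) :
    FT A l fun a => H708.holdS wI (H708.decLC T τL (l a) (sL a)) (H708.decLC T τR (l a) (sR a))
      (v a) b := by
  have h1 : ∀ b, FT A l fun a => H708.decLC T τR (l a) (sR a)
      (fun b' => (v a (wI b b')).map fun x => x b') b := by
    intro b
    have h0 := FT.decLC (B := B) hl T τR hsR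
      (y := fun a b' => (v a (wI b b')).map fun x => x b') (fun b' => hv (wI b b') b') b
    exact h0
  obtain ⟨D, hD⟩ : ∃ D : ∀ a, B → Fl (l a), ∀ a b, H708.decLC T τR (l a) (sR a)
      (fun b' => (v a (wI b b')).map fun x => x b') b = D a b := ⟨_, fun _ _ => rfl⟩
  have h2 : ∀ b, FT A l fun a => ((some (D a b) : Option (Fl (l a)))).getD 0 := fun b =>
    FT.congr (h1 b) fun a => hD a b
  have h3 := FT.decLC (B := B) hl T τL hsL (y := fun a b => some (D a b)) h2 b
  refine FT.congr h3 fun a => ?_
  unfold H708.holdS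
  simp only [hD]

end hold

end Vale.Agent.P330.H708
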